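import Mathlib

namespace Vale.Agent.Lib.P160

open Finset

/-- Bonferroni inequality of order two, in an ordered-pairs form. -/
theorem bonferroni {Ω I : Type*} [Fintype Ω] [DecidableEq Ω] [Fintype I] [DecidableEq I]
    (E : I → Finset Ω) :
    2 * ∑ α, (E α).card ≤
      2 * (univ.biUnion E).card + ∑ p ∈ (univ : Finset I).offDiag, (E p.1 ∩ E p.2).card := by
  classical
  let S : Ω → Finset I := fun ω => univ.filter (fun α => ω ∈ E α)
  have h1 : ∑ α, (E α).card = ∑ ω : Ω, (S ω).card := by
    simp only [S, card_eq_sum_ones, sum_filter]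
    rw [sum_comm]
    apply sum_congr rfl
    intro α _
    rw [← sum_filter]
    congr 1
    ext ω; simp
  have h2 : (univ.biUnion E).card = ∑ ω : Ω, (if (S ω).Nonempty then 1 else 0) := by
    rw [card_eq_sum_ones, ← sum_filter]
    congr 1
    ext ω
    simp [S, Finset.Nonempty]
  have h3 : ∑ p ∈ (univ : Finset I).offDiag, (E p.1 ∩ E p.2).card
      = ∑ ω : Ω, ((S ω).offDiag).card := by
    have : ∀ p : I × I, (E p.1 ∩ E p.2).card = ∑ ω : Ω, (if ω ∈ E p.1 ∩ E p.2 then 1 else 0) := by
      intro p
      rw [card_eq_sum_ones, ← sum_filter]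
      congr 1
      ext ω; simp
    simp only [this]
    rw [sum_comm]
    apply sum_congr rfl
    intro ω _
    rw [← sum_filter, ← card_eq_sum_ones]
    congr 1
    ext p
    simp only [S, mem_filter, mem_offDiag, mem_univ, true_and, mem_inter]
    tauto
  rw [h1, h2, h3, mul_sum, mul_sum, ← sum_add_distrib]
  apply sum_le_sum
  intro ω _
  rw [offDiag_card]
  by_cases hne : (S ω).Nonempty
  · rw [if_pos hne]
    have hk : 1 ≤ (S ω).card := hne.card_pos
    generalize (S ω).card = k at hk
    obtain ⟨m, rfl⟩ : ∃ m, k = m + 1 := ⟨k - 1, by omega⟩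
    have : (m + 1) * (m + 1) - (m + 1) = m * m + m := by
      have : (m + 1) * (m + 1) = m * m + m + (m + 1) := by ring
      omega
    rw [this]
    nlinarith
  · rw [if_neg hne]
    rw [not_nonempty_iff_eq_empty] at hne
    simp [hne]

end Vale.Agent.Lib.P160
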