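import Mathlib

namespace Vale.Agent.Lib.P160

/-- The sample space for `A_n`: one sign in `{1, -1}` (a unit of `ℤ`) for every unordered pair
`{i, j}` of indices, `i = j` allowed, i.e. for every entry on or above the diagonal. -/
abbrev SignConfig (n : ℕ) := Sym2 (Fin n) → ℤˣ

/-- The symmetric `n × n` sign matrix with entries `a_{ij} = a_{ji} = ω {i, j}`. -/
def symMatrix {n : ℕ} (ω : SignConfig n) : Matrix (Fin n) (Fin n) ℤ :=
  fun i j => ((ω s(i, j) : ℤˣ) : ℤ)

/-- `q_n`: the fraction of sign configurations (all equally likely) whose symmetric sign matrix is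
singular. -/
noncomputable def q (n : ℕ) : ℝ :=
  ((Finset.univ.filter (fun ω : SignConfig n => (symMatrix ω).det = 0)).card : ℝ) /
    (Fintype.card (SignConfig n) : ℝ)

end Vale.Agent.Lib.P160
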