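import Mathlib

namespace Vale.Agent.Lib.P160

open Finset

variable {ι : Type*} [Fintype ι] [DecidableEq ι]

/-- the event: row `i` equals `s` times row `j` -/
def rowEvent (i j : ι) (s : ℤˣ) : Finset (Sym2 ι → ℤˣ) :=
  univ.filter (fun ω => ∀ m, ω s(i, m) = s * ω s(j, m))

theorem mem_rowEvent {i j : ι} {s : ℤˣ} {ω : Sym2 ι → ℤˣ} :
    ω ∈ rowEvent i j s ↔ ∀ m, ω s(i, m) = s * ω s(j, m) := by
  simp [rowEvent]

theorem units_mul_self (s : ℤˣ) : s * s = 1 := by
  rcases Int.units_eq_one_or s with h | h <;> simp [h]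

theorem rowEvent_symm (i j : ι) (s : ℤˣ) : rowEvent i j s = rowEvent j i s := by
  ext ω
  simp only [mem_rowEvent]
  constructor
  · intro h m
    rw [h m, ← mul_assoc, units_mul_self, one_mul]
  · intro h m
    rw [h m, ← mul_assoc, units_mul_self, one_mul]

/-- lower bound for the size of a row event -/
theorem card_rowEvent_ge {i j : ι} (hij : i ≠ j) (s : ℤˣ) :
    Fintype.card (Sym2 {m : ι // m ≠ j} → ℤˣ) ≤ (rowEvent i j s).card := by
  classical
  let π : ι → {m : ι // m ≠ j} := fun m => if h : m = j then ⟨i, hij⟩ else ⟨m, h⟩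
  let σ : ι → ℤˣ := fun m => if m = j then s else 1
  let ext : (Sym2 {m : ι // m ≠ j} → ℤˣ) → (Sym2 ι → ℤˣ) := fun η =>
    Sym2.lift ⟨fun p q => σ p * σ q * η s(π p, π q), by
      intro a b
      show σ a * σ b * η s(π a, π b) = σ b * σ a * η s(π b, π a)
      rw [Sym2.eq_swap, mul_comm (σ a)]⟩
  have hext : ∀ η p q, ext η s(p, q) = σ p * σ q * η s(π p, π q) := fun η p q => rfl
  rw [← Finset.card_univ]
  apply Finset.card_le_card_of_injOn ext
  · intro η _
    rw [Finset.mem_coe, mem_rowEvent]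
    intro m
    rw [hext, hext]
    have h1 : σ i = 1 := by simp [σ, hij]
    have h2 : σ j = s := by simp [σ]
    have h3 : π i = ⟨i, hij⟩ := by simp [π, hij]
    have h4 : π j = ⟨i, hij⟩ := by simp [π]
    rw [h1, h2, h3, h4, one_mul, ← mul_assoc, ← mul_assoc, units_mul_self, one_mul]
  · intro η1 _ η2 _ h
    funext e
    induction e using Sym2.ind with
    | _ p q =>
      have := congrFun h s(p.1, q.1)
      rw [hext, hext] at this
      have hp : σ p.1 = 1 := by simp [σ, p.2]
      have hq : σ q.1 = 1 := by simp [σ, q.2]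
      have hp' : π p.1 = p := by simp [π, p.2]
      have hq' : π q.1 = q := by simp [π, q.2]
      simpa [hp, hq, hp', hq'] using this

/-- upper bound for the intersection of two row events with different dependent indices -/
theorem card_inter_le {x x' y y' : ι} (hxy : x ≠ y) (h1 : x' ≠ x) (h2 : x' ≠ y) (h3 : y' ≠ x)
    (h4 : y' ≠ y) (s t : ℤˣ) :
    (rowEvent x x' s ∩ rowEvent y y' t).card ≤
      Fintype.card (Sym2 {m : ι // m ≠ x ∧ m ≠ y} → ℤˣ) := by
  classical
  let π : ι → {m : ι // m ≠ x ∧ m ≠ y} := fun m =>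
    if hx : m = x then ⟨x', h1, h2⟩ else if hy : m = y then ⟨y', h3, h4⟩ else ⟨m, hx, hy⟩
  let σ : ι → ℤˣ := fun m => if m = x then s else if m = y then t else 1
  let r : (Sym2 ι → ℤˣ) → (Sym2 {m : ι // m ≠ x ∧ m ≠ y} → ℤˣ) := fun ω e =>
    ω (Sym2.map Subtype.val e)
  rw [← Finset.card_univ]
  apply Finset.card_le_card_of_injOn r (fun _ _ => Finset.mem_coe.mpr (Finset.mem_univ _))
  have step : ∀ ω ∈ rowEvent x x' s ∩ rowEvent y y' t, ∀ p q,
      ω s(p, q) = σ p * ω s((π p).1, q) := by
    intro ω hω p q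
    rw [mem_inter, mem_rowEvent, mem_rowEvent] at hω
    by_cases hx : p = x
    · subst hx
      simp only [σ, π, if_true, dif_pos]
      exact hω.1 q
    · by_cases hy : p = y
      · subst hy
        simp only [σ, π, hx, if_false, if_true, dif_pos, dif_neg, not_false_eq_true]
        exact hω.2 q
      · simp [σ, π, hx, hy]
  have full : ∀ ω ∈ rowEvent x x' s ∩ rowEvent y y' t, ∀ p q,
      ω s(p, q) = σ p * (σ q * r ω s(π p, π q)) := by
    intro ω hω p q
    rw [step ω hω p q, Sym2.eq_swap, step ω hω q _, Sym2.eq_swap]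
    rfl
  intro ω1 hω1 ω2 hω2 h
  funext e
  induction e using Sym2.ind with
  | _ p q =>
    rw [full ω1 hω1, full ω2 hω2, h]

/-- opposite signs are incompatible -/
theorem inter_opposite (i j : ι) {s t : ℤˣ} (hst : s ≠ t) :
    rowEvent i j s ∩ rowEvent i j t = ∅ := by
  ext ω
  simp only [mem_inter, mem_rowEvent, notMem_empty, iff_false, not_and]
  intro h1 h2
  apply hst
  have := (h1 i).symm.trans (h2 i)
  exact mul_right_cancel this

end Vale.Agent.Lib.P160
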