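import Mathlib
import Vale.Agent.Lib.P160.Defs
import Vale.Agent.Lib.P160.Events
import Vale.Agent.Lib.P160.Bonferroni

namespace Vale.Agent.Lib.P160

open Finset

theorem card_cfg (α : Type*) [Fintype α] [DecidableEq α] :
    Fintype.card (Sym2 α → ℤˣ) = 2 ^ (Fintype.card α + 1).choose 2 := by
  rw [Fintype.card_fun, Fintype.card_units_int, Sym2.card]

theorem card_ne1 {n : ℕ} (j : Fin n) : Fintype.card {m : Fin n // m ≠ j} = n - 1 := by
  rw [Fintype.card_subtype, Finset.filter_ne', Finset.card_erase_of_mem (Finset.mem_univ _)]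
  simp

theorem card_ne2 {n : ℕ} {x y : Fin n} (hxy : x ≠ y) :
    Fintype.card {m : Fin n // m ≠ x ∧ m ≠ y} = n - 2 := by
  rw [Fintype.card_subtype]
  have : (Finset.univ.filter (fun m : Fin n => m ≠ x ∧ m ≠ y)) = (Finset.univ.erase y).erase x := by
    ext m; simp
  rw [this, Finset.card_erase_of_mem, Finset.card_erase_of_mem (Finset.mem_univ _)]
  · simp; omega
  · simp [hxy]

/-- the event attached to an unordered pair of rows -/
def pairEvent {n : ℕ} (e : Sym2 (Fin n)) (s : ℤˣ) : Finset (SignConfig n) :=
  Sym2.lift ⟨fun i j => rowEvent i j s, fun i j => rowEvent_symm i j s⟩ e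

theorem pairEvent_mk {n : ℕ} (i j : Fin n) (s : ℤˣ) : pairEvent s(i, j) s = rowEvent i j s := rfl

theorem det_zero_of_mem {n : ℕ} {i j : Fin n} (hij : i ≠ j) {s : ℤˣ} {ω : SignConfig n}
    (h : ω ∈ rowEvent i j s) : (symMatrix ω).det = 0 := by
  rw [mem_rowEvent] at h
  rcases Int.units_eq_one_or s with hs | hs
  · apply Matrix.det_zero_of_row_eq hij
    funext m
    simp [symMatrix, h m, hs]
  · rw [← Matrix.det_updateRow_add_self _ hij]
    apply Matrix.det_eq_zero_of_row_eq_zero i
    intro m
    simp [symMatrix, h m, hs]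

theorem card_pairEvent_ge {n : ℕ} (e : Sym2 (Fin n)) (he : ¬ e.IsDiag) (s : ℤˣ) :
    2 ^ (n.choose 2) ≤ (pairEvent e s).card := by
  induction e using Sym2.ind with
  | _ i j =>
    have hij : i ≠ j := by simpa using he
    have hn : 1 ≤ n := by
      have := i.2; omega
    have := card_rowEvent_ge hij s
    rw [card_cfg, card_ne1, Nat.sub_add_cancel hn] at this
    exact this

theorem card_pairEvent_inter_le {n : ℕ} (e e' : Sym2 (Fin n)) (he : ¬ e.IsDiag) (he' : ¬ e'.IsDiag)
    (s t : ℤˣ) (hne : (e, s) ≠ (e', t)) :
    (pairEvent e s ∩ pairEvent e' t).card ≤ 2 ^ ((n - 1).choose 2) := by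
  induction e using Sym2.ind with
  | _ i j =>
  induction e' using Sym2.ind with
  | _ k l =>
    have hij : i ≠ j := by simpa using he
    have hkl : k ≠ l := by simpa using he'
    have hn : 2 ≤ n := by
      have h1 := i.2
      have h2 := j.2
      have : (i : ℕ) ≠ j := fun h => hij (Fin.ext h)
      omega
    have key : ∀ {x x' y y' : Fin n}, x ≠ y → x' ≠ x → x' ≠ y → y' ≠ x → y' ≠ y →
        (rowEvent x x' s ∩ rowEvent y y' t).card ≤ 2 ^ ((n - 1).choose 2) := by
      intro x x' y y' hxy h1 h2 h3 h4
      have := card_inter_le hxy h1 h2 h3 h4 s t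
      rw [card_cfg, card_ne2 hxy] at this
      have h5 : n - 2 + 1 = n - 1 := by omega
      rwa [h5] at this
    rw [pairEvent_mk, pairEvent_mk]
    by_cases hsame : s(i, j) = s(k, l)
    · have hst : s ≠ t := by
        intro h; apply hne; rw [hsame, h]
      have : rowEvent k l t = rowEvent i j t := by
        rw [← pairEvent_mk, ← pairEvent_mk, hsame]
      rw [this, inter_opposite i j hst]
      simp
    · rw [Sym2.eq_iff, not_or, not_and_or, not_and_or] at hsame
      -- choose x in {i,j} outside {k,l}
      by_cases hi : i = k ∨ i = l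
      · -- then j is outside {k,l}
        have hjk : j ≠ k := by
          rintro rfl
          rcases hi with h | h
          · exact hij h
          · rcases hsame.2 with h' | h'
            · exact h' h
            · exact h' rfl
        have hjl : j ≠ l := by
          rintro rfl
          rcases hi with h | h
          · rcases hsame.1 with h' | h'
            · exact h' h
            · exact h' rfl
          · exact hij h
        rw [rowEvent_symm i j s]
        -- x = j, x' = i
        by_cases hki : k = i
        · -- y = l, y' = k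
          rw [rowEvent_symm k l t]
          exact key hjl hij (by rw [← hki]; exact hkl) (Ne.symm hjk) hkl
        · exact key hjk hij (Ne.symm hki) (Ne.symm hjl) (Ne.symm hkl)
      · rw [not_or] at hi
        -- x = i, x' = j
        by_cases hkj : k = j
        · rw [rowEvent_symm k l t]
          exact key hi.2 (Ne.symm hij) (by rw [← hkj]; exact hkl) (Ne.symm hi.1) hkl
        · exact key hi.1 (Ne.symm hij) (Ne.symm hkj) (Ne.symm hi.2) (Ne.symm hkl)

end Vale.Agent.Lib.P160
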